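import Vale.Agent.Lib.P368.FinalP368

/-!
P368 (parity and shallow quantum circuits with generalized Toffoli gates of unbounded size).

At entangling depth at most three the parity correlation is at most C (1 + log N)^3 / sqrt n for
every circuit on N qubits, with no restriction on the number or the size of the gates, and hence
no family of circuits of entangling depth three on polynomially many qubits computes parity with a
fixed worst case advantage.
-/

namespace Vale.Agent.Results.P368.Depth3

open Vale.Agent.P368

theorem result :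
    (∃ C : ℝ, 0 < C ∧ ∀ (n N : ℕ), 0 < n → n ≤ N → ∀ (c : Circuit N),
      c.Valid → c.entDepth ≤ 3 → ∀ o : Fin N,
        |parityCorr n c o| ≤ C * (1 + Real.log N) ^ 3 / Real.sqrt n) ∧
    (∀ (k : ℕ) (ε : ℝ), 0 < ε → ∃ n₀ : ℕ, ∀ n N : ℕ, n₀ ≤ n → n ≤ N → N ≤ n ^ k + k →
      ∀ (c : Circuit N), c.Valid → c.entDepth ≤ 3 → ∀ o : Fin N, ¬ ComputesParity n c o ε) :=
  ⟨depth3_bound, depth3_no_family⟩

end Vale.Agent.Results.P368.Depth3
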